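import Claimed.Agent.R314.C.Reg.In

/-!
# Row 314, block C, package REG' (architect helper195): EXIT CONTRACT  (statement: helper97, chief C, after helper84 report 827 / helper195)

(R1) `Rm(Y,T,T,Y) = 0` along every line (`sv_index` for `f_L + t χ`, `Σ_i Rm(Y_i,T,T,Y_i) = Ric(T,T) = 0`, 1-D lemma);
(R2) `sv_master` along the line through `x`: upper and lower supports of `b` at `x` with `Hess ≤ g/l`, `≥ - g/l`;
(R3) 1-D barrier lemma: `b ∘ (chart geodesic)` is affine;
(R4) `b ∘ ψ` is differentiable (squeeze), `(b ∘ ψ)(rexp u v)` is affine in `v`, `rexp u` is a local diffeomorphism: `b ∘ ψ` is smooth, `Hess b = 0`.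
The owner replaces the `sorry` (imports of this file are his).
-/

set_option autoImplicit false
set_option linter.unusedSectionVars false
open scoped ContDiff Topology
open Set Claims.C0499 Claimed.Agent.R315

namespace Claimed.Agent.R314

variable {V : Type} [NormedAddCommGroup V] [NormedSpace ℝ V] [FiniteDimensional ℝ V]
variable {n : ℕ} {X : Set V} {g : Ten V}

/-- **REG-exit**. -/
theorem reg_main (h : CM n X g) (hR : RicFlat n X g) {b : V → ℝ} (hb : Lip1 X g b)
    (hl : ∀ x ∈ X, ∃ cx : ℝ → V, IsLine X g cx ∧ cx 0 = x ∧ ∀ t, b (cx t) = b x + t) :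
    IsAff n X g b :=
  reg_main_in h (regIn_of h hR) hb hl

end Claimed.Agent.R314
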