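import Claimed.Agent.R314.C.OneD
import Claimed.Agent.R316.Base.RGeo.Exp

/-!
# Row 314, block C, package REG' (architect helper195), file `Loc`: the chart theorem

`S : RGeo W` (row 316, `Base/RGeo`: an o-p-e-n set `S.U` of a finite dimensional space, a metric `S.G`, its Levi-Civita connection `S.Γ`).
`f : W → ℝ` continuous on `S.U`; at every point of `S.U` and for every `ε > 0` there are `C²` support functions of `f` from above with
`Hess ≤ ε G` and from below with `Hess ≥ - ε G` (at the touching point only).  Then `f` is smooth on `S.U` and `S.hess f = 0`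
(`reg_loc`).  No PDE: `f` is affine along the geodesics of the chart (`reg_affine_along`), differentiable (`reg_hasFDerivAt`), hence
`f (rexp x v) = f x + df_x v` (`reg_exp_affine`); `rexp x` is a local diffeomorphism with smooth inverse (`RGeo.IsNormal`).
-/

set_option autoImplicit false
set_option linter.unusedSectionVars false
set_option maxSynthPendingDepth 3
open scoped ContDiff Topology
open Set Filter Claimed.Agent.R316

namespace Claimed.Agent.R314

variable {W : Type} [NormedAddCommGroup W] [NormedSpace ℝ W] [FiniteDimensional ℝ W]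
variable {S : RGeo W} {f : W → ℝ}

/-- `f` has at `x` a `C²` upper support function `s` with `Hess s ≤ ε G` at `x`. -/
def RegUS (S : RGeo W) (f : W → ℝ) (x : W) (ε : ℝ) : Prop :=
  ∃ s : W → ℝ, ContDiffAt ℝ 2 s x ∧ s x = f x ∧ (∀ᶠ y in 𝓝 x, f y ≤ s y) ∧
    ∀ a, S.hess s x a a ≤ ε * S.G x a a

/-- the hypothesis of the chart theorem: continuity and `ε`-supports from both sides at all points. -/
structure RegBar (S : RGeo W) (f : W → ℝ) : Prop where
  cont : ContinuousOn f S.U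
  up : ∀ x ∈ S.U, ∀ ε > 0, RegUS S f x ε
  lo : ∀ x ∈ S.U, ∀ ε > 0, RegUS S (fun y => - f y) x ε

/-- **leaf REG-2A**: first and second derivative of a `C²` function along a geodesic.
PLAN. `ContDiffAt ℝ 2 s (c t₀)`: `s` is differentiable near `c t₀` and `fderiv ℝ s` is differentiable at `c t₀`
(`ContDiffAt.eventually`, `ContDiffAt.fderiv_right`).  `c` is differentiable on `I` with derivative `deriv c`, and
`HasDerivAt (deriv c) (- S.Γ (c t) (deriv c t) (deriv c t)) t` (`RGeo.IsGeod.hasDerivAt_deriv`).  First claim: chain rule, for `t` near `t₀` (continuity of `c`).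
Second claim: `HasDerivAt (fun t => fderiv ℝ s (c t)) (fderiv ℝ (fderiv ℝ s) (c t₀) (deriv c t₀)) t₀`, then `HasDerivAt.clm_apply`;
`fderiv ℝ (fun y => fderiv ℝ s y b) x a = fderiv ℝ (fderiv ℝ s) x a b` (`fderiv_clm_apply` with a constant). -/
theorem reg_hess_along (hS : S.IsRiem) {c : ℝ → W} {I : Set ℝ} (hI : IsOpen I) (hc : S.IsGeod c I)
    {t₀ : ℝ} (ht₀ : t₀ ∈ I) {s : W → ℝ} (hs : ContDiffAt ℝ 2 s (c t₀)) :
    (∀ᶠ t in 𝓝 t₀, HasDerivAt (fun r => s (c r)) (fderiv ℝ s (c t) (deriv c t)) t) ∧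
      HasDerivAt (fun t => fderiv ℝ s (c t) (deriv c t))
        (S.hess s (c t₀) (deriv c t₀) (deriv c t₀)) t₀ := by
  have hct : ContinuousAt c t₀ := (hc.differentiableAt hI ht₀).continuousAt
  constructor
  · have h1 : ∀ᶠ y in 𝓝 (c t₀), DifferentiableAt ℝ s y := by
      have := hs.eventually (by simp)
      exact this.mono fun y hy => hy.differentiableAt (by simp)
    filter_upwards [hct.eventually h1, hI.mem_nhds ht₀] with t h2 h3
    exact h2.hasFDerivAt.comp_hasDerivAt t (hc.differentiableAt hI h3).hasDerivAt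
  · have h1 : DifferentiableAt ℝ (fderiv ℝ s) (c t₀) :=
      (hs.fderiv_right (m := 1) (by norm_num)).differentiableAt (by simp)
    have h2 : HasDerivAt (fun t => fderiv ℝ s (c t)) (fderiv ℝ (fderiv ℝ s) (c t₀) (deriv c t₀)) t₀ :=
      h1.hasFDerivAt.comp_hasDerivAt t₀ (hc.differentiableAt hI ht₀).hasDerivAt
    have h3 := h2.clm_apply (hc.hasDerivAt_deriv hI ht₀)
    refine h3.congr_deriv ?_
    unfold RGeo.hess
    rw [fderiv_clm_apply h1 (differentiableAt_const _)]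
    simp
    ring

/-- **leaf REG-2B**: supports along a geodesic.
PLAN. `G₀ := S.G (c t₀) (deriv c t₀) (deriv c t₀) ≥ 0`; take `s` from `RegUS S f (c t₀) (ε / (G₀ + 1))`; `reg_hess_along`;
`f (c t) ≤ s (c t)` for `t` near `t₀` by continuity of `c` at `t₀`. -/
theorem reg_sup_along (hS : S.IsRiem) {c : ℝ → W} {I : Set ℝ} (hI : IsOpen I) (hc : S.IsGeod c I)
    (h : ∀ x ∈ S.U, ∀ ε > 0, RegUS S f x ε) {t₀ : ℝ} (ht₀ : t₀ ∈ I) {ε : ℝ} (hε : 0 < ε) :
    ∃ (u u' : ℝ → ℝ) (u'' : ℝ), (∀ᶠ t in 𝓝 t₀, HasDerivAt u (u' t) t) ∧ HasDerivAt u' u'' t₀ ∧ u'' ≤ ε ∧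
      u t₀ = f (c t₀) ∧ ∀ᶠ t in 𝓝 t₀, f (c t) ≤ u t := by
  set G₀ := S.G (c t₀) (deriv c t₀) (deriv c t₀) with hG₀
  have hx : c t₀ ∈ S.U := hc.2.1 t₀ ht₀
  have hG : 0 ≤ G₀ := by
    by_cases h0 : deriv c t₀ = 0
    · rw [hG₀, h0]; simp
    · exact (hS.G_pos _ hx _ h0).le
  obtain ⟨s, hs, e, l, hh⟩ := h (c t₀) hx (ε / (G₀ + 1)) (by positivity)
  obtain ⟨a1, a2⟩ := reg_hess_along hS hI hc ht₀ hs
  refine ⟨fun r => s (c r), fun t => fderiv ℝ s (c t) (deriv c t), _, a1, a2, ?_, e, ?_⟩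
  · refine (hh _).trans ?_
    rw [← hG₀, div_mul_eq_mul_div, div_le_iff₀ (by positivity)]
    nlinarith
  · exact (hc.differentiableAt hI ht₀).continuousAt.eventually l

/-- a function which is squeezed between two touching differentiable functions is differentiable (`c1d_squeeze`). -/
theorem reg_squeeze {s₁ s₂ : W → ℝ} {x : W} (h1 : DifferentiableAt ℝ s₁ x)
    (h2 : DifferentiableAt ℝ s₂ x) (e1 : s₁ x = f x) (e2 : s₂ x = f x)
    (l1 : ∀ᶠ y in 𝓝 x, s₁ y ≤ f y) (l2 : ∀ᶠ y in 𝓝 x, f y ≤ s₂ y) :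
    HasFDerivAt f (fderiv ℝ s₂ x) x :=
  (c1d_squeeze h2.hasFDerivAt h1.hasFDerivAt l1 l2 e1 e2).2

theorem reg_hasFDerivAt (h : RegBar S f) {x : W} (hx : x ∈ S.U) : DifferentiableAt ℝ f x := by
  obtain ⟨s₂, hs₂, e2, l2, -⟩ := h.up x hx 1 one_pos
  obtain ⟨s₁, hs₁, e1, l1, -⟩ := h.lo x hx 1 one_pos
  have := reg_squeeze (f := f) (s₁ := fun y => - s₁ y) (s₂ := s₂) (x := x)
    (hs₁.differentiableAt (by simp)).neg (hs₂.differentiableAt (by simp)) (by simp [e1]) e2
    (l1.mono fun y hy => by linarith) l2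
  exact this.differentiableAt

/-- the derivative of `f` is the derivative of any upper support function. -/
theorem reg_fderiv_eq (h : RegBar S f) {x : W} (hx : x ∈ S.U) {s : W → ℝ}
    (hs : DifferentiableAt ℝ s x) (e : s x = f x) (l : ∀ᶠ y in 𝓝 x, f y ≤ s y) :
    fderiv ℝ f x = fderiv ℝ s x := by
  obtain ⟨s₁, hs₁, e1, l1, -⟩ := h.lo x hx 1 one_pos
  exact (reg_squeeze (f := f) (s₁ := fun y => - s₁ y) (s₂ := s) (x := x)
    (hs₁.differentiableAt (by simp)).neg hs (by simp [e1]) e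
    (l1.mono fun y hy => by linarith) l).fderiv

/-- `f` is affine along the geodesics of the chart. -/
theorem reg_affine_along (hS : S.IsRiem) (h : RegBar S f) {c : ℝ → W} {I : Set ℝ} (hI : IsOpen I)
    (hIc : I.OrdConnected) (hc : S.IsGeod c I) {a b : ℝ} (ha : a ∈ I) (hb : b ∈ I) :
    f (c b) = f (c a) + (b - a) * fderiv ℝ f (c a) (deriv c a) := by
  have hcont : ContinuousOn (fun t => f (c t)) I :=
    h.cont.comp hc.1.continuousOn hc.2.1
  have hd : HasDerivAt (fun t => f (c t)) (fderiv ℝ f (c a) (deriv c a)) a :=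
    (reg_hasFDerivAt h (hc.2.1 a ha)).hasFDerivAt.comp_hasDerivAt a
      (hc.differentiableAt hI ha).hasDerivAt
  have c1 : ConcaveOn ℝ I (fun t => f (c t)) :=
    c1d_concave hIc.convex hcont (fun t₀ ht₀ ε hε => reg_sup_along hS hI hc h.up ht₀ hε)
  have c2 : ConcaveOn ℝ I (fun t => - f (c t)) :=
    c1d_concave hIc.convex hcont.neg (fun t₀ ht₀ ε hε => reg_sup_along hS hI hc h.lo ht₀ hε)
  obtain ⟨m, k, hmk⟩ := c1d_affine_of c1 (neg_concaveOn_iff.1 c2)
  have hd' : HasDerivAt (fun t => f (c t)) m a := by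
    have h3 : HasDerivAt (fun t : ℝ => m * t + k) m a := by
      simpa using ((hasDerivAt_id a).const_mul m).add_const k
    refine h3.congr_of_eventuallyEq ?_
    filter_upwards [hI.mem_nhds ha] with t ht using hmk t ht
  rw [hd.unique hd', hmk a ha, hmk b hb]
  ring

/-- `f` is affine in normal coordinates. -/
theorem reg_exp_affine (hS : S.IsRiem) (h : RegBar S f) {x v : W} (hv : (x, v) ∈ S.expDom) :
    f (S.rexp x v) = f x + fderiv ℝ f x v := by
  obtain ⟨ε, hε, -, hg, hd0, -⟩ := hS.isGeod_rexp hv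
  have h0 : (0 : ℝ) ∈ Ioo (-ε) (1 + ε) := ⟨by linarith, by linarith⟩
  have h1 : (1 : ℝ) ∈ Ioo (-ε) (1 + ε) := ⟨by linarith, by linarith⟩
  have := reg_affine_along hS h isOpen_Ioo ordConnected_Ioo hg h0 h1
  simp only [one_smul, zero_smul, hd0, sub_zero, one_mul] at this
  rwa [hS.rexp_zero (RGeo.mem_U_of_mem_expDom hv)] at this

/-- **leaf REG-2D**: smoothness.
PLAN. `x₀ ∈ S.U`; `hS.exists_normal hx₀` gives `N ∋ x₀`, `ρ`, `hN : S.IsNormal N ρ`.  `O := S.rexp x₀ '' {v | S.nrm x₀ v < ρ}` is an o-p-e-n set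
(`IsNormal.isOpen_image`, `r = ρ`) which contains `x₀ = rexp x₀ 0` (`IsRiem.rexp_zero`, `nrm x₀ 0 = 0 < ρ`).  On `O`:
`f y = f x₀ + fderiv ℝ f x₀ (invFunOn (S.rexp x₀) {v | S.nrm x₀ v < ρ} y)` (`reg_exp_affine`, `hN.mem`, left inverse `(hN.injOn x₀ _).leftInvOn_invFunOn`);
the right side is smooth on `O` (`IsNormal.contDiffOn_inv`, composition with a continuous linear map).  `ContDiffOn.congr`, `contDiffAt`. -/
theorem reg_smooth (hS : S.IsRiem) (h : RegBar S f) : ContDiffOn ℝ ∞ f S.U := by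
  intro x₀ hx₀
  obtain ⟨N, ρ, hxN, hN⟩ := hS.exists_normal hx₀
  have hO : IsOpen (S.rexp x₀ '' {v | S.nrm x₀ v < ρ}) := hN.isOpen_image hS hxN le_rfl
  have h0 : S.nrm x₀ 0 < ρ := by
    have : S.nrm x₀ 0 = 0 := by simp [RGeo.nrm]
    rw [this]
    exact hN.pos
  have hx₀O : x₀ ∈ S.rexp x₀ '' {v | S.nrm x₀ v < ρ} := ⟨0, h0, hS.rexp_zero hx₀⟩
  have hsm : ContDiffOn ℝ ∞ (fun y => f x₀ + fderiv ℝ f x₀ (Function.invFunOn (S.rexp x₀) {v | S.nrm x₀ v < ρ} y))
      (S.rexp x₀ '' {v | S.nrm x₀ v < ρ}) :=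
    contDiffOn_const.add ((fderiv ℝ f x₀).contDiff.comp_contDiffOn (hN.contDiffOn_inv hS hxN))
  have hcong : ∀ y ∈ S.rexp x₀ '' {v | S.nrm x₀ v < ρ},
      f y = f x₀ + fderiv ℝ f x₀ (Function.invFunOn (S.rexp x₀) {v | S.nrm x₀ v < ρ} y) := by
    rintro _ ⟨v, hv, rfl⟩
    rw [(hN.injOn x₀ hxN).leftInvOn_invFunOn hv]
    exact reg_exp_affine hS h (hN.mem x₀ hxN v hv)
  exact ((hsm.congr hcong).contDiffAt (hO.mem_nhds hx₀O)).contDiffWithinAt

theorem reg_hess_eq (S : RGeo W) {x : W} (hf : ContDiffAt ℝ 2 f x) (a b : W) :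
    S.hess f x a b = fderiv ℝ (fderiv ℝ f) x a b - fderiv ℝ f x (S.Γ x a b) := by
  unfold RGeo.hess
  have hd : DifferentiableAt ℝ (fderiv ℝ f) x :=
    (hf.fderiv_right (m := 1) (by norm_num)).differentiableAt (by simp)
  rw [fderiv_clm_apply hd (differentiableAt_const b)]
  simp

/-- **leaf REG-2E**: the Hessian of a `C²` function is a symmetric bilinear form; polarisation.
PLAN. `S.hess f x a b = fderiv ℝ (fderiv ℝ f) x a b - fderiv ℝ f x (S.Γ x a b)` (`fderiv_clm_apply`); symmetric: `ContDiffAt.isSymmSndFDerivAt` (`minSmoothness ℝ 2 = 2`)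
and `hS.Γ_symm`; bilinear by `map_add`; `4 hess(a,b) = hess(a+b,a+b) - hess(a-b,a-b)`. -/
theorem reg_hess_polar (hS : S.IsRiem) {x : W} (hx : x ∈ S.U) (hf : ContDiffAt ℝ 2 f x)
    (h0 : ∀ a, S.hess f x a a = 0) (a b : W) : S.hess f x a b = 0 := by
  have hsymm : fderiv ℝ (fderiv ℝ f) x a b = fderiv ℝ (fderiv ℝ f) x b a :=
    (hf.isSymmSndFDerivAt (by simp)).eq a b
  have h1 := h0 (a + b)
  have h2 := h0 a
  have h3 := h0 b
  rw [reg_hess_eq S hf] at h1 h2 h3 ⊢
  simp only [map_add, add_apply] at h1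
  rw [hS.Γ_symm x hx b a] at h1
  linarith

/-- **leaf REG-2F**: the Hessian vanishes on the diagonal.
PLAN. `c r = (S.gfl r (x, a)).1` is a geodesic on the o-p-e-n interval-like set `J = {t | (t, (x, a)) ∈ S.gdm} ∋ 0` (`IsRiem.isGeod_gfl`, `IsRiem.isOpen_gdm_times`,
`ordConnected_gdm_times`, `zero_mem_gdm`), `c 0 = x`, `deriv c 0 = a` (`IsRiem.hasDerivAt_gfl_fst`, `gfl_zero`).  By `reg_affine_along` (base point `0`):
`f (c t) = f x + t * β` on `J`, so `deriv (f ∘ c) = β` near `0`; by `reg_hess_along` (with `s = f`, `reg_smooth`): `deriv (f ∘ c) t = fderiv ℝ f (c t) (deriv c t)` near `0` and this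
function has derivative `S.hess f x a a` at `0`; it is constant near `0`: `HasDerivAt.unique` with `hasDerivAt_const` (after `congr_of_eventuallyEq`). -/
theorem reg_hess_diag (hS : S.IsRiem) (h : RegBar S f) {x : W} (hx : x ∈ S.U) (a : W) :
    S.hess f x a a = 0 := by
  have hJo := RGeo.IsRiem.isOpen_gdm_times hS x a
  have hJc := RGeo.ordConnected_gdm_times S x a
  have h0 : (0 : ℝ) ∈ {t | (t, (x, a)) ∈ S.gdm} := RGeo.zero_mem_gdm.2 hx
  have hg := RGeo.IsRiem.isGeod_gfl hS x a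
  have hc0 : (S.gfl 0 (x, a)).1 = x := by rw [RGeo.gfl_zero]
  have hd0 : deriv (fun r => (S.gfl r (x, a)).1) 0 = a := by
    rw [(RGeo.IsRiem.hasDerivAt_gfl_fst hS h0).deriv, RGeo.gfl_zero]
  have hf2 : ContDiffAt ℝ 2 f ((fun r => (S.gfl r (x, a)).1) 0) := by
    simp only [hc0]
    exact ((reg_smooth hS h).contDiffAt (hS.mem_nhds hx)).of_le (by norm_cast)
  obtain ⟨e1, e2⟩ := reg_hess_along hS hJo hg h0 hf2
  simp only [hc0, hd0] at e2
  -- the first derivative is constant near `0`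
  have haff : ∀ t ∈ {t | (t, (x, a)) ∈ S.gdm}, f ((S.gfl t (x, a)).1) = f x + t * fderiv ℝ f x a := by
    intro t ht
    have := reg_affine_along hS h hJo hJc hg h0 ht
    simp only [hc0, hd0, sub_zero] at this
    exact this
  have hconst : (fun t => fderiv ℝ f ((S.gfl t (x, a)).1) (deriv (fun r => (S.gfl r (x, a)).1) t))
      =ᶠ[𝓝 0] fun _ => fderiv ℝ f x a := by
    have hev : ∀ᶠ t in 𝓝 (0 : ℝ), ∀ᶠ r in 𝓝 t, r ∈ {t | (t, (x, a)) ∈ S.gdm} :=
      (eventually_eventually_nhds.2 (hJo.mem_nhds h0))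
    filter_upwards [e1, hev] with t ht1 ht2
    have h3 : HasDerivAt (fun r : ℝ => f x + r * fderiv ℝ f x a) (fderiv ℝ f x a) t := by
      simpa using ((hasDerivAt_id t).mul_const (fderiv ℝ f x a)).const_add (f x)
    have h4 : HasDerivAt (fun r => f ((S.gfl r (x, a)).1)) (fderiv ℝ f x a) t := by
      refine h3.congr_of_eventuallyEq ?_
      filter_upwards [ht2] with r hr using haff r hr
    exact ht1.unique h4
  exact (e2.congr_of_eventuallyEq hconst.symm).unique (hasDerivAt_const _ _)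

/-- **the chart theorem of REG.** -/
theorem reg_loc (hS : S.IsRiem) (h : RegBar S f) :
    ContDiffOn ℝ ∞ f S.U ∧ ∀ x ∈ S.U, ∀ a b, S.hess f x a b = 0 :=
  ⟨reg_smooth hS h, fun x hx a b =>
    reg_hess_polar hS hx (((reg_smooth hS h).contDiffAt (hS.mem_nhds hx)).of_le (by norm_cast))
      (fun a => reg_hess_diag hS h hx a) a b⟩

end Claimed.Agent.R314
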