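import Claimed.Agent.R314.C.Defs
import Claimed.Agent.R314.C.OneD2
import Claimed.Agent.R314.C.Reg.Loc

/-!
# Row 314, block C, package REG' (architect helper195), file `Main`: Busemann type functions are affine

`RegIn n X g` collects what REG' uses from GEO / SV / Trace (+ `RicFlat`), in the shape in which it is used.
`reg_main_in`: `CM n X g`, `RegIn n X g`, `b` is `1`-Lipschitz and through every `x ∈ X` there is a line `c` with `c 0 = x`, `b (c t) = b x + t`
⟹ `IsAff n X g b`.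

Steps: `reg_line_flat` (curvature vanishes along lines: `c1d_index_zero`), `reg_upper` (upper supports with `Hess ≤ g / l`),
`reg_bar` (the hypothesis `RegBar` of the chart theorem `reg_loc` in every parametrisation), `reg_hessC_eq`.
-/

set_option autoImplicit false
set_option linter.unusedSectionVars false
set_option maxSynthPendingDepth 3
open scoped ContDiff Topology
open Set Filter Claims.C0499 Claimed.Agent.R315 Claimed.Agent.R316

namespace Claimed.Agent.R314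

variable {V : Type} [NormedAddCommGroup V] [NormedSpace ℝ V] [FiniteDimensional ℝ V]
variable {n : ℕ} {X : Set V} {g : Ten V}

/-- the inputs of REG'. -/
structure RegIn (n : ℕ) (X : Set V) (g : Ten V) : Prop where
  /-- GEO: the chart data are Riemannian. -/
  riem : ∀ (ψ : E n → V) (U : Set (E n)), IsParam X ψ U → (rgeo g ψ U).IsRiem
  /-- GEO + Trace + `RicFlat`: a unit parallel field along a line is a member of a family of `n` unit parallel fields whose curvatures add up to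
  `Ric(T,T) ≥ 0`. -/
  frame : ∀ c : ℝ → V, IsLine X g c → ∀ Y : ℝ → V, IsPar n X g c Y univ → g (c 0) (Y 0) (Y 0) = 1 →
    ∃ Z : Fin n → ℝ → V, (∀ i, IsPar n X g c (Z i) univ) ∧ (∀ i, g (c 0) (Z i 0) (Z i 0) = 1) ∧
      (∃ i, Z i = Y) ∧ ∀ t, 0 ≤ ∑ i, secA n X g (c t) (Z i t) (deriv c t)
  /-- GEO / SV: continuity of the curvature along a line. -/
  cont : ∀ c : ℝ → V, IsLine X g c → ∀ Y : ℝ → V, IsPar n X g c Y univ →
    Continuous fun t => secA n X g (c t) (Y t) (deriv c t)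
  /-- SV: the index inequality on all segments of a line. -/
  index : ∀ c : ℝ → V, IsLine X g c → ∀ Y : ℝ → V, IsPar n X g c Y univ → ∀ a b : ℝ, a < b →
    ∀ f : ℝ → ℝ, ContDiff ℝ ∞ f → f a = 0 → f b = 0 →
      ∫ t in a..b, f t ^ 2 * secA n X g (c t) (Y t) (deriv c t) ≤
        g (c 0) (Y 0) (Y 0) * ∫ t in a..b, deriv f t ^ 2
  /-- GEO: parallel fields have constant norm. -/
  nrm : ∀ c : ℝ → V, IsLine X g c → ∀ Y : ℝ → V, IsPar n X g c Y univ → ∀ t,
    g (c t) (Y t) (Y t) = g (c 0) (Y 0) (Y 0)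
  /-- SV + GEO: the master support function of the distance from `c 0` at `c l`. -/
  master : ∀ c : ℝ → V, IsLine X g c → ∀ l : ℝ, 0 < l →
    ∃ s : V → ℝ, UpperSupp n X (rdist X g (c 0)) s (c l) ∧
      ∀ (ψ : E n → V) (U : Set (E n)), IsParam X ψ U → ∀ u ∈ U, ψ u = c l → ∀ A : E n,
        ∃ Y : ℝ → V, IsPar n X g c Y univ ∧ Y l = fderiv ℝ ψ u A ∧
          (rgeo g ψ U).hess (s ∘ ψ) u A A ≤ if_bil (cm g ψ u) A A / l -
            ∫ t in (0 : ℝ)..l, (t / l) ^ 2 * secA n X g (c t) (Y t) (deriv c t)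

/-- the coordinate Hessian of `Def_0499` type is the Hessian of the chart calculus. -/
theorem reg_hessC_eq (g : Ten V) (ψ : E n → V) (U : Set (E n)) (f : E n → ℝ) (u : E n) (i j : Fin n) :
    hessC (cm g ψ) f u i j = (rgeo g ψ U).hess f u (eb i) (eb j) := by
  unfold hessC RGeo.hess rgeo
  simp only
  rw [if_clm_expand (fderiv ℝ f u)]
  simp only [if_Gam_eb]
  rfl

/-- a `1`-Lipschitz function is continuous. -/
theorem reg_lip_cont (h : CM n X g) {b : V → ℝ} (hb : Lip1 X g b) : ContinuousOn b X := by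
  have hrd := if_isRd h.mfd h.conn h.met
  intro x hx
  have h1 : Tendsto (fun y => rdist X g x y) (𝓝[X] x) (𝓝 0) := by
    have := hrd.cont x hx x hx
    rwa [ContinuousWithinAt, hrd.self x hx] at this
  rw [ContinuousWithinAt, tendsto_iff_dist_tendsto_zero]
  refine squeeze_zero' (Eventually.of_forall fun y => dist_nonneg) ?_ h1
  filter_upwards [self_mem_nhdsWithin] with y hy
  rw [Real.dist_eq, abs_sub_comm]
  exact hb x hx y hy

/-- **curvature vanishes along lines.** -/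
theorem reg_line_flat (hin : RegIn n X g) {c : ℝ → V} (hc : IsLine X g c) {Y : ℝ → V}
    (hY : IsPar n X g c Y univ) (h1 : g (c 0) (Y 0) (Y 0) = 1) (t : ℝ) :
    secA n X g (c t) (Y t) (deriv c t) = 0 := by
  obtain ⟨Z, hZ, hZ1, ⟨i, rfl⟩, hsum⟩ := hin.frame c hc Y hY h1
  exact c1d_index_zero (fun i t => secA n X g (c t) (Z i t) (deriv c t))
    (fun i => hin.cont c hc (Z i) (hZ i)) hsum
    (fun i a b hab f hf fa fb => by
      have := hin.index c hc (Z i) (hZ i) a b hab f hf fa fb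
      rwa [hZ1 i, one_mul] at this) i t

/-- the Hessian bound on unit vectors gives the bound on all vectors. -/
theorem reg_hess_le_of_unit {S : RGeo (E n)} (hS : S.IsRiem) {f : E n → ℝ} {u : E n} (hu : u ∈ S.U)
    (hf : ContDiffAt ℝ 2 f u) {C : ℝ} (h : ∀ A, S.G u A A = 1 → S.hess f u A A ≤ C) (A : E n) :
    S.hess f u A A ≤ C * S.G u A A := by
  have hq : ∀ (r : ℝ) (B : E n), S.hess f u (r • B) (r • B) = r ^ 2 * S.hess f u B B := by
    intro r B
    rw [reg_hess_eq S hf, reg_hess_eq S hf]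
    simp only [map_smul, smul_apply, smul_eq_mul]
    ring
  by_cases hA : A = 0
  · subst hA
    have := hq 0 0
    simp only [zero_smul] at this
    rw [this]
    simp
  · have hpos := hS.G_pos u hu A hA
    set r := Real.sqrt (S.G u A A) with hr
    have hr0 : 0 < r := Real.sqrt_pos.2 hpos
    have hr2 : r ^ 2 = S.G u A A := Real.sq_sqrt hpos.le
    have hB : S.G u (r⁻¹ • A) (r⁻¹ • A) = 1 := by
      simp only [map_smul, smul_apply, smul_eq_mul]
      rw [← hr2]
      field_simp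
    have e : A = r • (r⁻¹ • A) := by
      rw [smul_smul, mul_inv_cancel₀ hr0.ne', one_smul]
    have h2 := h _ hB
    calc S.hess f u A A = r ^ 2 * S.hess f u (r⁻¹ • A) (r⁻¹ • A) := by
          conv_lhs => rw [e]
          exact hq r _
      _ ≤ r ^ 2 * C := by gcongr
      _ = C * S.G u A A := by rw [hr2]; ring

/-- **leaf REG-3B: upper supports with small Hessian.**
PLAN. SHIFTED LINE `γ t := c (t - l)`: `IsLine X g γ` (trivial from `hc`: `|(s - l) - (t - l)| = |s - t|`), `γ 0 = c (-l)`, `γ l = c 0` (`sub_self`).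
`s₀` from `hin.master γ hγ l hl`; `s y := b (c 0) - l + s₀ y`.
`smooth`: `(s ∘ ψ) = fun u => b (c 0) - l + (s₀ ∘ ψ) u`, `contDiffOn_const.add`.  `eq`: `s₀ (c 0) = rdist (c (-l)) (c 0) = |(-l) - 0| = l` (`hc.2`).
`le`: for `y ∈ X` (`eventually_mem_nhdsWithin`) with `rdist (c (-l)) y ≤ s₀ y`: `b y ≤ b (c (-l)) + rdist (c (-l)) y` (`hb`, `le_abs_self`, `(if_isRd h.mfd h.conn h.met).symm` if needed),
`b (c (-l)) = b (c 0) - l` (`hbc`).
`HessLE`: `S := rgeo g ψ U`, `hS := hin.riem ψ U hp`; `S.hess (s ∘ ψ) u A A = S.hess (s₀ ∘ ψ) u A A` (unfold `RGeo.hess`; `fderiv_const_add` under the binder: first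
`have : s ∘ ψ = fun w => (b (c 0) - l) + (s₀ ∘ ψ) w := rfl`, then `simp only [RGeo.hess, fderiv_const_add]`); `reg_hess_le_of_unit` (smoothness: `if_smoothAlong_contDiffAt`, `.of_le`) reduces to
`S.G u A A = 1`, i.e. `if_bil (cm g ψ u) A A = 1`; take `Y` from the master clause: `g (γ l) (Y l) (Y l) = 1` by `if_cm_bil` (`ψ u = γ l`), so `g (γ 0) (Y 0) (Y 0) = 1` (`hin.nrm`), so the integrand
vanishes (`reg_line_flat hin hγ hY`, `simp`): `hess ≤ 1 / l`. -/
theorem reg_upper (h : CM n X g) (hin : RegIn n X g) {b : V → ℝ} (hb : Lip1 X g b) {c : ℝ → V}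
    (hc : IsLine X g c) (hbc : ∀ t, b (c t) = b (c 0) + t) {l : ℝ} (hl : 0 < l) :
    ∃ s : V → ℝ, UpperSupp n X b s (c 0) ∧ HessLE n X g s (c 0) (1 / l) := by
  obtain ⟨γ, hγd⟩ : ∃ γ : ℝ → V, γ = fun t => c (t - l) := ⟨_, rfl⟩
  have hγ : IsLine X g γ := by
    rw [hγd]
    refine ⟨fun s _ => hc.1 _ (mem_univ _), fun s _ t _ => ?_⟩
    show rdist X g (c (s - l)) (c (t - l)) = |s - t|
    rw [hc.2 _ (mem_univ _) _ (mem_univ _)]
    congr 1
    ring
  have hγ0 : γ 0 = c (-l) := by rw [hγd]; simp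
  have hγl : γ l = c 0 := by rw [hγd]; simp
  obtain ⟨s₀, hs₀, hm⟩ := hin.master γ hγ l hl
  rw [hγ0, hγl] at hs₀
  have hrd := if_isRd h.mfd h.conn h.met
  have hcX : ∀ t, c t ∈ X := fun t => hc.1 t (mem_univ t)
  have hcomp : ∀ ψ : E n → V, (fun y => b (c 0) - l + s₀ y) ∘ ψ = fun w => (b (c 0) - l) + (s₀ ∘ ψ) w := fun ψ => rfl
  refine ⟨fun y => b (c 0) - l + s₀ y, ⟨?_, ?_, ?_⟩, ?_⟩
  · intro ψ U hp
    rw [hcomp]
    exact contDiffOn_const.add (hs₀.smooth ψ U hp)
  · filter_upwards [hs₀.le, eventually_mem_nhdsWithin] with y hy hyX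
    have h1 := hb y hyX (c (-l)) (hcX _)
    have h2 := le_abs_self (b y - b (c (-l)))
    have h3 := hrd.symm y hyX (c (-l)) (hcX _)
    have h4 := hbc (-l)
    linarith
  · have h1 : s₀ (c 0) = rdist X g (c (-l)) (c 0) := hs₀.eq
    have h2 : rdist X g (c (-l)) (c 0) = |(-l) - 0| := hc.2 _ (mem_univ _) _ (mem_univ _)
    have h3 : |(-l) - 0| = l := by
      rw [sub_zero, abs_neg, abs_of_pos hl]
    show b (c 0) - l + s₀ (c 0) = b (c 0)
    rw [h1, h2, h3]
    ring
  · intro ψ U hp u hu hψ A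
    have hS := hin.riem ψ U hp
    have hsm : ContDiffAt ℝ 2 (s₀ ∘ ψ) u := (if_smoothAlong_contDiffAt hs₀.smooth hp hu).of_le (by norm_cast)
    have e1 : ∀ B : E n, (rgeo g ψ U).hess ((fun y => b (c 0) - l + s₀ y) ∘ ψ) u B B = (rgeo g ψ U).hess (s₀ ∘ ψ) u B B := by
      intro B
      rw [hcomp]
      simp only [RGeo.hess, fderiv_const_add]
    rw [e1]
    refine reg_hess_le_of_unit hS hu hsm ?_ A
    intro B hB
    obtain ⟨Y, hY, hY0, hle⟩ := hm ψ U hp u hu (hψ.trans hγl.symm) B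
    have hB' : if_bil (cm g ψ u) B B = 1 := hB
    have hY1 : g (γ 0) (Y 0) (Y 0) = 1 := by
      rw [← hin.nrm γ hγ Y hY l, hY0, hγl, ← hψ, ← if_cm_bil]
      exact hB'
    have hz : ∫ t in (0 : ℝ)..l, (t / l) ^ 2 * secA n X g (γ t) (Y t) (deriv γ t) = 0 := by
      simp only [reg_line_flat hin hγ hY hY1, mul_zero, intervalIntegral.integral_zero]
    rw [hz, hB', sub_zero] at hle
    exact hle

/-- **leaf REG-3C**: the hypothesis of the chart theorem, one side.
PLAN. `x := ψ u ∈ X` (`if_mem`); `c` from `hline`; `reg_upper` with `l = 1 / ε` (rewrite `c 0 = ψ u`; `1 / (1 / ε) = ε`) gives `s`; the support function of `b ∘ ψ` at `u` is `s ∘ ψ`: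
`ContDiffAt ℝ 2` from `hs.smooth ψ U hp` (`ContDiffOn.contDiffAt`, `(if_open hp).mem_nhds hu`, `.of_le (by norm_cast)`); `hs.le : ∀ᶠ y in 𝓝[X] (ψ u), ..` is pulled back by
`ψ`: `Tendsto ψ (𝓝 u) (𝓝[X] (ψ u))` (`tendsto_nhdsWithin_iff`: continuity of `ψ` at `u` + `ψ w ∈ X` for `w ∈ U`); the Hessian clause is `HessLE` verbatim (`(rgeo g ψ U).G u = if_bil (cm g ψ u)` by `rfl`). -/
theorem reg_bar_up (h : CM n X g) (hin : RegIn n X g) {b : V → ℝ} (hb : Lip1 X g b)
    (hline : ∀ x ∈ X, ∃ c : ℝ → V, IsLine X g c ∧ c 0 = x ∧ ∀ t, b (c t) = b x + t)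
    {ψ : E n → V} {U : Set (E n)} (hp : IsParam X ψ U) {u : E n} (hu : u ∈ U) {ε : ℝ} (hε : 0 < ε) :
    RegUS (rgeo g ψ U) (b ∘ ψ) u ε := by
  obtain ⟨c, hc, hc0, hbc⟩ := hline (ψ u) (if_mem hp hu)
  have hbc' : ∀ t, b (c t) = b (c 0) + t := by
    intro t
    rw [hc0]
    exact hbc t
  obtain ⟨s, hs, hH⟩ := reg_upper h hin hb hc hbc' (l := 1 / ε) (by positivity)
  rw [hc0] at hs hH
  rw [one_div_one_div] at hH
  refine ⟨s ∘ ψ, ?_, hs.eq, ?_, fun a => hH ψ U hp u hu rfl a⟩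
  · exact ((hs.smooth ψ U hp).contDiffAt ((if_open hp).mem_nhds hu)).of_le (by norm_cast)
  · have ht : Tendsto ψ (𝓝 u) (𝓝[X] (ψ u)) := by
      rw [tendsto_nhdsWithin_iff]
      refine ⟨(if_contDiffAt hp hu).continuousAt, ?_⟩
      filter_upwards [(if_open hp).mem_nhds hu] with w hw using if_mem hp hw
    exact ht.eventually hs.le

/-- the reversed data. -/
theorem reg_neg_line {b : V → ℝ}
    (hline : ∀ x ∈ X, ∃ c : ℝ → V, IsLine X g c ∧ c 0 = x ∧ ∀ t, b (c t) = b x + t) :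
    ∀ x ∈ X, ∃ c : ℝ → V, IsLine X g c ∧ c 0 = x ∧ ∀ t, (fun y => - b y) (c t) = (fun y => - b y) x + t := by
  intro x hx
  obtain ⟨c, hc, h0, hb⟩ := hline x hx
  refine ⟨fun t => c (-t), ⟨fun s _ => hc.1 _ (mem_univ _), fun s _ t _ => ?_⟩, by simpa using h0,
    fun t => ?_⟩
  · rw [hc.2 _ (mem_univ _) _ (mem_univ _)]
    rw [show -s - -t = -(s - t) by ring, abs_neg]
  · simp only [hb]
    ring

theorem reg_bar (h : CM n X g) (hin : RegIn n X g) {b : V → ℝ} (hb : Lip1 X g b)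
    (hline : ∀ x ∈ X, ∃ c : ℝ → V, IsLine X g c ∧ c 0 = x ∧ ∀ t, b (c t) = b x + t)
    {ψ : E n → V} {U : Set (E n)} (hp : IsParam X ψ U) : RegBar (rgeo g ψ U) (b ∘ ψ) where
  cont := (reg_lip_cont h hb).comp (if_continuousOn hp) (fun _ hu => if_mem hp hu)
  up := fun _ hu _ hε => reg_bar_up h hin hb hline hp hu hε
  lo := fun _ hu _ hε =>
    reg_bar_up h hin (b := fun y => - b y) (fun x hx y hy => by
      have := hb x hx y hy
      rwa [show - b x - - b y = -(b x - b y) by ring, abs_neg]) (reg_neg_line hline) hp hu hε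

/-- **exit of REG'** (relative to `RegIn`). -/
theorem reg_main_in (h : CM n X g) (hin : RegIn n X g) {b : V → ℝ} (hb : Lip1 X g b)
    (hline : ∀ x ∈ X, ∃ c : ℝ → V, IsLine X g c ∧ c 0 = x ∧ ∀ t, b (c t) = b x + t) :
    IsAff n X g b := by
  refine ⟨fun ψ U hp => (reg_loc (hin.riem ψ U hp) (reg_bar h hin hb hline hp)).1,
    fun ψ U hp u hu i j => ?_⟩
  rw [reg_hessC_eq g ψ U]
  exact (reg_loc (hin.riem ψ U hp) (reg_bar h hin hb hline hp)).2 u hu _ _

end Claimed.Agent.R314
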