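import Claimed.Agent.R314.C.SV.Exit
import Claimed.Agent.R314.C.Reg.Main
import Claimed.Agent.R314.C.Trace

/-!
# Row 314, block C, package REG' (architect helper195), file `In`: the inputs `RegIn` from the exit contracts of GEO and SV

`regIn_of : CM n X g → RicFlat n X g → RegIn n X g`.
-/

set_option autoImplicit false
set_option linter.unusedSectionVars false
set_option maxSynthPendingDepth 3
open scoped ContDiff Topology
open Set Filter Claims.C0499 Claimed.Agent.R315 Claimed.Agent.R316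

namespace Claimed.Agent.R314

variable {V : Type} [NormedAddCommGroup V] [NormedSpace ℝ V] [FiniteDimensional ℝ V]
variable {n : ℕ} {X : Set V} {g : Ten V}

theorem reg_seg_mono {c : ℝ → V} {S S' : Set ℝ} (hc : IsSeg X g c S) (hsub : S' ⊆ S) :
    IsSeg X g c S' :=
  ⟨fun s hs => hc.1 s (hsub hs), fun s hs t ht => hc.2 s (hsub hs) t (hsub ht)⟩

/-- inner products of parallel fields along a line are constant. -/
theorem reg_inner_const (h : CM n X g) {c : ℝ → V} (hc : IsLine X g c) {Y Y' : ℝ → V}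
    (hY : IsPar n X g c Y univ) (hY' : IsPar n X g c Y' univ) (s t : ℝ) :
    g (c s) (Y s) (Y' s) = g (c t) (Y t) (Y' t) := by
  have hg := (IsSeg.isGeo_line h hc).1
  have hs : s ∈ Ioo (-(|s| + |t| + 1)) (|s| + |t| + 1) :=
    ⟨by linarith [neg_abs_le s, abs_nonneg t], by linarith [le_abs_self s, abs_nonneg t]⟩
  have ht : t ∈ Ioo (-(|s| + |t| + 1)) (|s| + |t| + 1) :=
    ⟨by linarith [neg_abs_le t, abs_nonneg s], by linarith [le_abs_self t, abs_nonneg s]⟩
  exact IsPar.inner_const h.mfd h.met (hg.mono (subset_univ _)) (hY.mono (subset_univ _))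
    (hY'.mono (subset_univ _)) hs ht

/-- parallel orthonormal frames along a line and the trace of the curvature (`tr_ric`, `secA_eq`, `RicFlat`). -/
theorem reg_frame (h : CM n X g) (hR : RicFlat n X g) {c : ℝ → V} (hc : IsLine X g c) {Y : ℝ → V}
    (hY : IsPar n X g c Y univ) (h1 : g (c 0) (Y 0) (Y 0) = 1) :
    ∃ Z : Fin n → ℝ → V, (∀ i, IsPar n X g c (Z i) univ) ∧ (∀ i, g (c 0) (Z i 0) (Z i 0) = 1) ∧
      (∃ i, Z i = Y) ∧ ∀ t, 0 ≤ ∑ i, secA n X g (c t) (Z i t) (deriv c t) := by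
  classical
  have hg := (IsSeg.isGeo_line h hc).1
  obtain ⟨ψ, U, hp, u, hu, hu0⟩ := h.mfd (c 0) (hc.1 0 (mem_univ _))
  obtain ⟨A₀, hA₀⟩ := (if_tan_iff hp hu).1 (hu0 ▸ hY.2.1 0 (mem_univ _))
  have hS := rgeo_isRiem h.met hp
  have hunit : (rgeo g ψ U).G u A₀ A₀ = 1 := by
    show if_bil (cm g ψ u) A₀ A₀ = 1
    rw [if_cm_bil, hu0, ← hA₀, h1]
  have hfr := hS.exists_frame_of_unit hu hunit
  rw [finrank_euclideanSpace_fin] at hfr
  obtain ⟨e, i₀, he, hei⟩ := hfr
  have hex : ∀ i, ∃ Z : ℝ → V, IsPar n X g c Z univ ∧ Z 0 = fderiv ℝ ψ u (e i) := fun i =>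
    par_exists_univ h.mfd h.met hg 0 (hu0 ▸ if_tan_mk hp hu (e i))
  choose Z₀ hZ₀ hZ₀0 using hex
  have hZ : ∀ i, IsPar n X g c (if i = i₀ then Y else Z₀ i) univ := by
    intro i
    split_ifs
    · exact hY
    · exact hZ₀ i
  have hZ0 : ∀ i, (if i = i₀ then Y else Z₀ i) 0 = fderiv ℝ ψ u (e i) := by
    intro i
    split_ifs with hi
    · rw [hi, hei, hA₀]
    · exact hZ₀0 i
  have hon0 : ∀ i j, g (c 0) ((if i = i₀ then Y else Z₀ i) 0) ((if j = i₀ then Y else Z₀ j) 0)
      = if i = j then 1 else 0 := by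
    intro i j
    rw [hZ0, hZ0, ← hu0, ← if_cm_bil]
    split_ifs with hij
    · rw [hij]; exact he.unit j
    · exact he.orth i j hij
  refine ⟨fun i => if i = i₀ then Y else Z₀ i, hZ, fun i => by simpa using hon0 i i,
    ⟨i₀, by simp⟩, fun t => ?_⟩
  obtain ⟨ψ', U', hp', u', hu', hut⟩ := h.mfd (c t) (hc.1 t (mem_univ _))
  have hA : ∀ i, ∃ A, (if i = i₀ then Y else Z₀ i) t = fderiv ℝ ψ' u' A := fun i =>
    (if_tan_iff hp' hu').1 (hut ▸ (hZ i).2.1 t (mem_univ _))
  choose A hA using hA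
  obtain ⟨B, hB⟩ := (if_tan_iff hp' hu').1
    (hut ▸ hg.deriv_mem_tan h.mfd isOpen_univ (mem_univ t))
  have hOn : TrOn (cm g ψ') u' A := by
    intro a b
    rw [if_cm_bil, hut, ← hA, ← hA, reg_inner_const h hc (hZ a) (hZ b) t 0, hon0]
  have hmet : rm_Met (cm g ψ') U' := ⟨if_open hp', (h.met ψ' U' hp').1, (h.met ψ' U' hp').2⟩
  have hsum := tr_ric hmet hu' hOn B
  have hsec : ∀ i, secA n X g (c t) ((if i = i₀ then Y else Z₀ i) t) (deriv c t)
      = (trS (cm g ψ') U').secNum u' (A i) B := by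
    intro i
    rw [hA i, hB, ← hut, secA_eq h.met hp' hu']
    rfl
  simp only [hsec, hsum, hR ψ' U' hp' u' hu']
  simp

theorem regIn_of (h : CM n X g) (hR : RicFlat n X g) : RegIn n X g where
  riem := fun ψ U hp => rgeo_isRiem h.met hp
  frame := fun c hc Y hY h1 => reg_frame h hR hc hY h1
  cont := fun c hc Y hY => by
    rw [← continuousOn_univ]
    exact IsPar.continuousOn_secA h.mfd h.met isOpen_univ (IsSeg.isGeo_line h hc).1 hY
  index := fun c hc Y hY a b hab f hf fa fb => by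
    have := sv_index h hab one_pos ((IsSeg.isGeo_line h hc).1.mono (subset_univ _))
      (reg_seg_mono hc (subset_univ _)) (hY.mono (subset_univ _)) hf fa fb
    rwa [reg_inner_const h hc hY hY a 0] at this
  nrm := fun c hc Y hY t => reg_inner_const h hc hY hY t 0
  master := fun c hc l hl => by
    have hg := (IsSeg.isGeo_line h hc).1
    obtain ⟨s, hs, -, hH⟩ := sv_master h hl one_pos (hg.mono (subset_univ _))
      (reg_seg_mono hc (subset_univ _))
    refine ⟨s, hs, fun ψ U hp u hu hul A => ?_⟩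
    obtain ⟨Y, hY, hYl⟩ := par_exists_univ h.mfd h.met hg l (e := fderiv ℝ ψ u A)
      (hul ▸ if_tan_mk hp hu A)
    refine ⟨Y, hY, hYl, ?_⟩
    have h2 := hH Y (hY.mono (subset_univ _)) ψ U hp u hu hul A hYl.symm
    have h3 : g (c l) (Y l) (Y l) = if_bil (cm g ψ u) A A := by
      rw [if_cm_bil, hul, hYl]
    have h4 : 0 ≤ g (c l) (deriv c l) (Y l) ^ 2 / l := by positivity
    rw [h3] at h2
    linarith

end Claimed.Agent.R314
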